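import Vale.Agent.P050.H936.Defs2

/-!
The number of edges of `spGraph s t g`: the edges of a part.
-/

namespace Vale.Agent.P050.H226.Sub2

open Vale.Agent.P050.H936

/-- the edges of a part -/
def Ed : SP → Type
  | .edge => Unit
  | .ser p q => Ed p ⊕ Ed q
  | .par p q => Ed p ⊕ Ed q
  | .hang p q => Ed p ⊕ Ed q
  | .rev p => Ed p

/-- the two ends of an edge -/
def pr {W : Type} : (p : SP) → W → W → (p.In → W) → Ed p → W × W
  | .edge, x, y, _, _ => (x, y)
  | .ser p q, x, y, f, d => Sum.elim (pr p x (f (.inl ())) (fun i => f (.inr (.inl i))))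
      (pr q (f (.inl ())) y (fun i => f (.inr (.inr i)))) d
  | .par p q, x, y, f, d => Sum.elim (pr p x y (fun i => f (.inl i)))
      (pr q x y (fun i => f (.inr i))) d
  | .hang p q, x, y, f, d => Sum.elim (pr p x y (fun i => f (.inr (.inl i))))
      (pr q x (f (.inl ())) (fun i => f (.inr (.inr i)))) d
  | .rev p, x, y, f, d => pr p y x f d

theorem rel_iff {W : Type} (p : SP) : ∀ (x y : W) (f : p.In → W) (a b : W),
    p.rel x y f a b ↔ ∃ d, pr p x y f d = (a, b) := by
  induction p with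
  | edge =>
    intro x y f a b
    constructor
    · rintro ⟨h1, h2⟩
      exact ⟨(), by rw [h1, h2]; rfl⟩
    · rintro ⟨d, h⟩
      have h' : (x, y) = (a, b) := h
      exact ⟨(congrArg Prod.fst h').symm, (congrArg Prod.snd h').symm⟩
  | ser p q ihp ihq =>
    intro x y f a b
    constructor
    · rintro (h | h)
      · obtain ⟨d, h⟩ := (ihp _ _ _ _ _).1 h
        exact ⟨Sum.inl d, h⟩
      · obtain ⟨d, h⟩ := (ihq _ _ _ _ _).1 h
        exact ⟨Sum.inr d, h⟩
    · rintro ⟨d | d, h⟩
      · exact Or.inl ((ihp _ _ _ _ _).2 ⟨d, h⟩)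
      · exact Or.inr ((ihq _ _ _ _ _).2 ⟨d, h⟩)
  | par p q ihp ihq =>
    intro x y f a b
    constructor
    · rintro (h | h)
      · obtain ⟨d, h⟩ := (ihp _ _ _ _ _).1 h
        exact ⟨Sum.inl d, h⟩
      · obtain ⟨d, h⟩ := (ihq _ _ _ _ _).1 h
        exact ⟨Sum.inr d, h⟩
    · rintro ⟨d | d, h⟩
      · exact Or.inl ((ihp _ _ _ _ _).2 ⟨d, h⟩)
      · exact Or.inr ((ihq _ _ _ _ _).2 ⟨d, h⟩)
  | hang p q ihp ihq =>
    intro x y f a b
    constructor
    · rintro (h | h)
      · obtain ⟨d, h⟩ := (ihp _ _ _ _ _).1 h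
        exact ⟨Sum.inl d, h⟩
      · obtain ⟨d, h⟩ := (ihq _ _ _ _ _).1 h
        exact ⟨Sum.inr d, h⟩
    · rintro ⟨d | d, h⟩
      · exact Or.inl ((ihp _ _ _ _ _).2 ⟨d, h⟩)
      · exact Or.inr ((ihq _ _ _ _ _).2 ⟨d, h⟩)
  | rev p ihp =>
    intro x y f a b
    exact ihp y x f a b

/-- the vertices of a part -/
def Sp {ι W : Type} (x y : W) (f : ι → W) (a : W) : Prop := a = x ∨ a = y ∨ ∃ i, a = f i

/-- the vertices are different -/
structure Gd {ι W : Type} (x y : W) (f : ι → W) : Prop where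
  ne : x ≠ y
  inj : Function.Injective f
  fx : ∀ i, f i ≠ x
  fy : ∀ i, f i ≠ y

theorem Gd.swap {ι W : Type} {x y : W} {f : ι → W} (h : Gd x y f) : Gd y x f :=
  ⟨h.ne.symm, h.inj, h.fy, h.fx⟩

theorem Sp.swap {ι W : Type} {x y : W} {f : ι → W} {a : W} (h : Sp x y f a) : Sp y x f a := by
  rcases h with h | h | h
  · exact Or.inr (Or.inl h)
  · exact Or.inl h
  · exact Or.inr (Or.inr h)

section

variable {ι κ W : Type} {x y : W}

/-- first part of `ser` -/
theorem Gd.ser1 {f : Unit ⊕ (ι ⊕ κ) → W} (h : Gd x y f) :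
    Gd x (f (.inl ())) (fun i => f (.inr (.inl i))) :=
  ⟨(h.fx _).symm, fun i j e => by
    have := h.inj e
    simpa using this, fun i => h.fx _, fun i e => by
    have := h.inj e
    simp at this⟩

/-- second part of `ser` -/
theorem Gd.ser2 {f : Unit ⊕ (ι ⊕ κ) → W} (h : Gd x y f) :
    Gd (f (.inl ())) y (fun i => f (.inr (.inr i))) :=
  ⟨h.fy _, fun i j e => by
    have := h.inj e
    simpa using this, fun i e => by
    have := h.inj e
    simp at this, fun i => h.fy _⟩

/-- first part of `hang` -/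
theorem Gd.hang1 {f : Unit ⊕ (ι ⊕ κ) → W} (h : Gd x y f) :
    Gd x y (fun i => f (.inr (.inl i))) :=
  ⟨h.ne, fun i j e => by
    have := h.inj e
    simpa using this, fun i => h.fx _, fun i => h.fy _⟩

/-- second part of `hang` -/
theorem Gd.hang2 {f : Unit ⊕ (ι ⊕ κ) → W} (h : Gd x y f) :
    Gd x (f (.inl ())) (fun i => f (.inr (.inr i))) :=
  ⟨(h.fx _).symm, fun i j e => by
    have := h.inj e
    simpa using this, fun i => h.fx _, fun i e => by
    have := h.inj e
    simp at this⟩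

theorem Gd.par1 {f : ι ⊕ κ → W} (h : Gd x y f) : Gd x y (fun i => f (.inl i)) :=
  ⟨h.ne, fun i j e => by
    have := h.inj e
    simpa using this, fun i => h.fx _, fun i => h.fy _⟩

theorem Gd.par2 {f : ι ⊕ κ → W} (h : Gd x y f) : Gd x y (fun i => f (.inr i)) :=
  ⟨h.ne, fun i j e => by
    have := h.inj e
    simpa using this, fun i => h.fx _, fun i => h.fy _⟩

theorem Sp.ser {f : Unit ⊕ (ι ⊕ κ) → W} (h : Gd x y f) {a : W}
    (h1 : Sp x (f (.inl ())) (fun i => f (.inr (.inl i))) a)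
    (h2 : Sp (f (.inl ())) y (fun i => f (.inr (.inr i))) a) : a = f (.inl ()) := by
  rcases h1 with h1 | h1 | ⟨i, h1⟩
  · rcases h2 with h2 | h2 | ⟨j, h2⟩
    · exact h2
    · exact absurd (h1.symm.trans h2) h.ne
    · exact absurd (h2.symm.trans h1) (h.fx _)
  · exact h1
  · rcases h2 with h2 | h2 | ⟨j, h2⟩
    · exact h2
    · exact absurd (h1.symm.trans h2) (h.fy _)
    · have := h.inj (h1.symm.trans h2)
      simp at this

theorem Sp.hang {f : Unit ⊕ (ι ⊕ κ) → W} (h : Gd x y f) {a : W}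
    (h1 : Sp x y (fun i => f (.inr (.inl i))) a)
    (h2 : Sp x (f (.inl ())) (fun i => f (.inr (.inr i))) a) : a = x := by
  rcases h1 with h1 | h1 | ⟨i, h1⟩
  · exact h1
  · rcases h2 with h2 | h2 | ⟨j, h2⟩
    · exact h2
    · exact absurd (h2.symm.trans h1) (h.fy _)
    · exact absurd (h2.symm.trans h1) (h.fy _)
  · rcases h2 with h2 | h2 | ⟨j, h2⟩
    · exact h2
    · have := h.inj (h1.symm.trans h2)
      simp at this
    · have := h.inj (h1.symm.trans h2)
      simp at this

theorem Sp.par {f : ι ⊕ κ → W} (h : Gd x y f) {a : W}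
    (h1 : Sp x y (fun i => f (.inl i)) a) (h2 : Sp x y (fun i => f (.inr i)) a) :
    a = x ∨ a = y := by
  rcases h1 with h1 | h1 | ⟨i, h1⟩
  · exact Or.inl h1
  · exact Or.inr h1
  · rcases h2 with h2 | h2 | ⟨j, h2⟩
    · exact Or.inl h2
    · exact Or.inr h2
    · have := h.inj (h1.symm.trans h2)
      simp at this

end

/-- the ends of the edges are vertices of the part -/
theorem pr_mem {W : Type} (p : SP) : ∀ (x y : W) (f : p.In → W) (d : Ed p),
    Sp x y f (pr p x y f d).1 ∧ Sp x y f (pr p x y f d).2 := by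
  induction p with
  | edge => exact fun x y f d => ⟨Or.inl rfl, Or.inr (Or.inl rfl)⟩
  | ser p q ihp ihq =>
    intro x y f d
    rcases d with d | d
    · have e : ∀ a, Sp x (f (.inl ())) (fun i => f (.inr (.inl i))) a → Sp x y f a := by
        rintro a (h | h | ⟨i, h⟩)
        · exact Or.inl h
        · exact Or.inr (Or.inr ⟨_, h⟩)
        · exact Or.inr (Or.inr ⟨_, h⟩)
      exact ⟨e _ (ihp _ _ _ d).1, e _ (ihp _ _ _ d).2⟩
    · have e : ∀ a, Sp (f (.inl ())) y (fun i => f (.inr (.inr i))) a → Sp x y f a := by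
        rintro a (h | h | ⟨i, h⟩)
        · exact Or.inr (Or.inr ⟨_, h⟩)
        · exact Or.inr (Or.inl h)
        · exact Or.inr (Or.inr ⟨_, h⟩)
      exact ⟨e _ (ihq _ _ _ d).1, e _ (ihq _ _ _ d).2⟩
  | par p q ihp ihq =>
    intro x y f d
    rcases d with d | d
    · have e : ∀ a, Sp x y (fun i => f (.inl i)) a → Sp x y f a := by
        rintro a (h | h | ⟨i, h⟩)
        · exact Or.inl h
        · exact Or.inr (Or.inl h)
        · exact Or.inr (Or.inr ⟨_, h⟩)
      exact ⟨e _ (ihp _ _ _ d).1, e _ (ihp _ _ _ d).2⟩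
    · have e : ∀ a, Sp x y (fun i => f (.inr i)) a → Sp x y f a := by
        rintro a (h | h | ⟨i, h⟩)
        · exact Or.inl h
        · exact Or.inr (Or.inl h)
        · exact Or.inr (Or.inr ⟨_, h⟩)
      exact ⟨e _ (ihq _ _ _ d).1, e _ (ihq _ _ _ d).2⟩
  | hang p q ihp ihq =>
    intro x y f d
    rcases d with d | d
    · have e : ∀ a, Sp x y (fun i => f (.inr (.inl i))) a → Sp x y f a := by
        rintro a (h | h | ⟨i, h⟩)
        · exact Or.inl h
        · exact Or.inr (Or.inl h)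
        · exact Or.inr (Or.inr ⟨_, h⟩)
      exact ⟨e _ (ihp _ _ _ d).1, e _ (ihp _ _ _ d).2⟩
    · have e : ∀ a, Sp x (f (.inl ())) (fun i => f (.inr (.inr i))) a → Sp x y f a := by
        rintro a (h | h | ⟨i, h⟩)
        · exact Or.inl h
        · exact Or.inr (Or.inr ⟨_, h⟩)
        · exact Or.inr (Or.inr ⟨_, h⟩)
      exact ⟨e _ (ihq _ _ _ d).1, e _ (ihq _ _ _ d).2⟩
  | rev p ihp =>
    intro x y f d
    exact ⟨(ihp y x f d).1.swap, (ihp y x f d).2.swap⟩

/-- the ends of an edge are different -/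
theorem pr_ne {W : Type} (p : SP) : ∀ (x y : W) (f : p.In → W), Gd x y f → ∀ d : Ed p,
    (pr p x y f d).1 ≠ (pr p x y f d).2 := by
  induction p with
  | edge => exact fun x y f h d => h.ne
  | ser p q ihp ihq =>
    intro x y f h d
    rcases d with d | d
    · exact ihp _ _ _ h.ser1 d
    · exact ihq _ _ _ h.ser2 d
  | par p q ihp ihq =>
    intro x y f h d
    rcases d with d | d
    · exact ihp _ _ _ h.par1 d
    · exact ihq _ _ _ h.par2 d
  | hang p q ihp ihq =>
    intro x y f h d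
    rcases d with d | d
    · exact ihp _ _ _ h.hang1 d
    · exact ihq _ _ _ h.hang2 d
  | rev p ihp =>
    intro x y f h d
    exact ihp _ _ _ h.swap d

/-- no edge joins the terminals of a part of length at least 2 -/
theorem pr_len {W : Type} (p : SP) : ∀ (x y : W) (f : p.In → W), Gd x y f → p.Ok → 2 ≤ p.len →
    ∀ d : Ed p, ¬ (((pr p x y f d).1 = x ∨ (pr p x y f d).1 = y) ∧
      ((pr p x y f d).2 = x ∨ (pr p x y f d).2 = y)) := by
  induction p with
  | edge =>
    intro x y f h _ hl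
    exact absurd hl (by decide)
  | ser p q ihp ihq =>
    intro x y f h hO hl d
    rcases d with d | d
    · have e : ∀ a, Sp x (f (.inl ())) (fun i => f (.inr (.inl i))) a → (a = x ∨ a = y) →
          a = x := by
        rintro a h1 (h2 | h2)
        · exact h2
        · rcases h1 with h1 | h1 | ⟨i, h1⟩
          · exact h1
          · exact absurd (h1.symm.trans h2) (h.fy _)
          · exact absurd (h1.symm.trans h2) (h.fy _)
      rintro ⟨h1, h2⟩
      exact pr_ne p _ _ _ h.ser1 d ((e _ (pr_mem p _ _ _ d).1 h1).trans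
        (e _ (pr_mem p _ _ _ d).2 h2).symm)
    · have e : ∀ a, Sp (f (.inl ())) y (fun i => f (.inr (.inr i))) a → (a = x ∨ a = y) →
          a = y := by
        rintro a h1 (h2 | h2)
        · rcases h1 with h1 | h1 | ⟨i, h1⟩
          · exact absurd (h1.symm.trans h2) (h.fx _)
          · exact h1
          · exact absurd (h1.symm.trans h2) (h.fx _)
        · exact h2
      rintro ⟨h1, h2⟩
      exact pr_ne q _ _ _ h.ser2 d ((e _ (pr_mem q _ _ _ d).1 h1).trans
        (e _ (pr_mem q _ _ _ d).2 h2).symm)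
  | par p q ihp ihq =>
    intro x y f h hO hl d
    obtain ⟨hp, hq, he, h2⟩ := hO
    rcases d with d | d
    · exact ihp _ _ _ h.par1 hp h2 d
    · exact ihq _ _ _ h.par2 hq (he ▸ h2) d
  | hang p q ihp ihq =>
    intro x y f h hO hl d
    obtain ⟨hp, hq⟩ := hO
    rcases d with d | d
    · exact ihp _ _ _ h.hang1 hp hl d
    · have e : ∀ a, Sp x (f (.inl ())) (fun i => f (.inr (.inr i))) a → (a = x ∨ a = y) →
          a = x := by
        rintro a h1 (h2 | h2)
        · exact h2
        · rcases h1 with h1 | h1 | ⟨i, h1⟩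
          · exact h1
          · exact absurd (h1.symm.trans h2) (h.fy _)
          · exact absurd (h1.symm.trans h2) (h.fy _)
      rintro ⟨h1, h2⟩
      exact pr_ne q _ _ _ h.hang2 d ((e _ (pr_mem q _ _ _ d).1 h1).trans
        (e _ (pr_mem q _ _ _ d).2 h2).symm)
  | rev p ihp =>
    intro x y f h hO hl d
    rintro ⟨h1, h2⟩
    exact ihp y x f h.swap hO hl d ⟨h1.symm, h2.symm⟩

/-- the unordered pair of the ends -/
def sy {W : Type} (z : W × W) : Sym2 W := s(z.1, z.2)

theorem sy_mem {W : Type} {z w : W × W} (h : sy z = sy w) {P : W → Prop} (h1 : P w.1)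
    (h2 : P w.2) : P z.1 ∧ P z.2 := by
  rcases Sym2.eq_iff.1 h with ⟨e1, e2⟩ | ⟨e1, e2⟩
  · exact ⟨e1 ▸ h1, e2 ▸ h2⟩
  · exact ⟨e1 ▸ h2, e2 ▸ h1⟩

/-- an edge is determined by its ends -/
theorem pr_inj {W : Type} (p : SP) : ∀ (x y : W) (f : p.In → W), Gd x y f → p.Ok →
    ∀ d d' : Ed p, sy (pr p x y f d) = sy (pr p x y f d') → d = d' := by
  induction p with
  | edge => exact fun x y f _ _ d d' _ => rfl
  | ser p q ihp ihq =>
    intro x y f h hO
    obtain ⟨hp, hq⟩ := hO
    have cross : ∀ (d : Ed p) (d' : Ed q), sy (pr p x (f (.inl ())) (fun i => f (.inr (.inl i))) d)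
        = sy (pr q (f (.inl ())) y (fun i => f (.inr (.inr i))) d') → False := by
      intro d d' hd
      obtain ⟨h1, h2⟩ := sy_mem hd (pr_mem q _ _ _ d').1 (pr_mem q _ _ _ d').2
      obtain ⟨h3, h4⟩ := pr_mem p x (f (.inl ())) (fun i => f (.inr (.inl i))) d
      exact pr_ne p _ _ _ h.ser1 d ((h3.ser h h1).trans (h4.ser h h2).symm)
    intro d d' hd
    rcases d with d | d <;> rcases d' with d' | d'
    · exact congrArg Sum.inl (ihp _ _ _ h.ser1 hp d d' hd)
    · exact (cross d d' hd).elim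
    · exact (cross d' d hd.symm).elim
    · exact congrArg Sum.inr (ihq _ _ _ h.ser2 hq d d' hd)
  | par p q ihp ihq =>
    intro x y f h hO
    obtain ⟨hp, hq, he, hl⟩ := hO
    have cross : ∀ (d : Ed p) (d' : Ed q), sy (pr p x y (fun i => f (.inl i)) d)
        = sy (pr q x y (fun i => f (.inr i)) d') → False := by
      intro d d' hd
      obtain ⟨h1, h2⟩ := sy_mem hd (pr_mem q _ _ _ d').1 (pr_mem q _ _ _ d').2
      obtain ⟨h3, h4⟩ := pr_mem p x y (fun i => f (.inl i)) d
      exact pr_len p _ _ _ h.par1 hp hl d ⟨h3.par h h1, h4.par h h2⟩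
    intro d d' hd
    rcases d with d | d <;> rcases d' with d' | d'
    · exact congrArg Sum.inl (ihp _ _ _ h.par1 hp d d' hd)
    · exact (cross d d' hd).elim
    · exact (cross d' d hd.symm).elim
    · exact congrArg Sum.inr (ihq _ _ _ h.par2 hq d d' hd)
  | hang p q ihp ihq =>
    intro x y f h hO
    obtain ⟨hp, hq⟩ := hO
    have cross : ∀ (d : Ed p) (d' : Ed q), sy (pr p x y (fun i => f (.inr (.inl i))) d)
        = sy (pr q x (f (.inl ())) (fun i => f (.inr (.inr i))) d') → False := by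
      intro d d' hd
      obtain ⟨h1, h2⟩ := sy_mem hd (pr_mem q _ _ _ d').1 (pr_mem q _ _ _ d').2
      obtain ⟨h3, h4⟩ := pr_mem p x y (fun i => f (.inr (.inl i))) d
      exact pr_ne p _ _ _ h.hang1 d ((h3.hang h h1).trans (h4.hang h h2).symm)
    intro d d' hd
    rcases d with d | d <;> rcases d' with d' | d'
    · exact congrArg Sum.inl (ihp _ _ _ h.hang1 hp d d' hd)
    · exact (cross d d' hd).elim
    · exact (cross d' d hd.symm).elim
    · exact congrArg Sum.inr (ihq _ _ _ h.hang2 hq d d' hd)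
  | rev p ihp =>
    intro x y f h hO d d' hd
    exact ihp y x f h.swap hO d d' hd

end Vale.Agent.P050.H226.Sub2
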