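import Vale.Agent.P050.H936.Spec2
import Vale.Agent.P050.H226.Sub2.Ed

/-!
[C2] the number of edges of `spGraph s t g`.
-/

namespace Vale.Agent.P050.H226.Sub2

open Finset Vale.Agent.P050.H936

theorem finEd (p : SP) : Finite (Ed p) := by
  induction p with
  | edge => exact inferInstanceAs (Finite Unit)
  | ser p q ihp ihq => exact inferInstanceAs (Finite (Ed p ⊕ Ed q))
  | par p q ihp ihq => exact inferInstanceAs (Finite (Ed p ⊕ Ed q))
  | hang p q ihp ihq => exact inferInstanceAs (Finite (Ed p ⊕ Ed q))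
  | rev p ihp => exact ihp

instance (p : SP) : Finite (Ed p) := finEd p

theorem card_Ed (p : SP) : Nat.card (Ed p) = p.size := by
  induction p with
  | edge =>
    show Nat.card Unit = 1
    simp
  | ser p q ihp ihq =>
    show Nat.card (Ed p ⊕ Ed q) = p.size + q.size
    rw [Nat.card_sum, ihp, ihq]
  | par p q ihp ihq =>
    show Nat.card (Ed p ⊕ Ed q) = p.size + q.size
    rw [Nat.card_sum, ihp, ihq]
  | hang p q ihp ihq =>
    show Nat.card (Ed p ⊕ Ed q) = p.size + q.size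
    rw [Nat.card_sum, ihp, ihq]
  | rev p ihp => exact ihp

variable {V E : Type} (s t : E → V) (g : E → SP)

/-- the ends of the edges of the graph -/
def pq (d : Σ e, Ed (g e)) : (V ⊕ (Σ e : E, (g e).In)) × (V ⊕ (Σ e : E, (g e).In)) :=
  pr (g d.1) (Sum.inl (s d.1)) (Sum.inl (t d.1)) (fun i => Sum.inr ⟨d.1, i⟩) d.2

theorem adj_iff (a b : V ⊕ (Σ e : E, (g e).In)) : (spGraph s t g).Adj a b ↔
    a ≠ b ∧ ((∃ d, pq s t g d = (a, b)) ∨ ∃ d, pq s t g d = (b, a)) := by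
  have h : ∀ a b : V ⊕ (Σ e : E, (g e).In), (∃ e, (g e).rel (Sum.inl (s e)) (Sum.inl (t e))
      (fun i => Sum.inr ⟨e, i⟩) a b) ↔ ∃ d, pq s t g d = (a, b) := by
    intro a b
    constructor
    · rintro ⟨e, he⟩
      obtain ⟨d, hd⟩ := (rel_iff _ _ _ _ _ _).1 he
      exact ⟨⟨e, d⟩, hd⟩
    · rintro ⟨⟨e, d⟩, hd⟩
      exact ⟨e, (rel_iff _ _ _ _ _ _).2 ⟨d, hd⟩⟩
  rw [← h, ← h]
  exact Iff.rfl

theorem gd (hs : ∀ e, s e ≠ t e) (e : E) : Gd (Sum.inl (s e) : V ⊕ (Σ e : E, (g e).In))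
    (Sum.inl (t e)) (fun i => Sum.inr ⟨e, i⟩) :=
  ⟨fun h => hs e (Sum.inl.inj h), fun i j h => by
    have := Sum.inr.inj h
    simpa using this, fun i => Sum.inr_ne_inl, fun i => Sum.inr_ne_inl⟩

theorem pq_inj (hs : ∀ e, s e ≠ t e) (hO : ∀ e, (g e).Ok) (hl : ∀ e, 2 ≤ (g e).len)
    (d d' : Σ e, Ed (g e)) (h : sy (pq s t g d) = sy (pq s t g d')) : d = d' := by
  obtain ⟨e, d⟩ := d
  obtain ⟨e', d'⟩ := d'
  by_cases hee : e = e'
  · subst hee
    rw [pr_inj (g e) _ _ _ (gd s t g hs e) (hO e) d d' h]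
  · exfalso
    obtain ⟨h1, h2⟩ := sy_mem h (pr_mem (g e') _ _ _ d').1 (pr_mem (g e') _ _ _ d').2
    obtain ⟨h3, h4⟩ := pr_mem (g e) (Sum.inl (s e) : V ⊕ (Σ e : E, (g e).In))
      (Sum.inl (t e)) (fun i => Sum.inr ⟨e, i⟩) d
    have key : ∀ a : V ⊕ (Σ e : E, (g e).In),
        Sp (Sum.inl (s e')) (Sum.inl (t e')) (fun i => Sum.inr ⟨e', i⟩) a →
        Sp (Sum.inl (s e)) (Sum.inl (t e)) (fun i => Sum.inr ⟨e, i⟩) a →
        a = Sum.inl (s e) ∨ a = Sum.inl (t e) := by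
      rintro a h5 (h6 | h6 | ⟨i, h6⟩)
      · exact Or.inl h6
      · exact Or.inr h6
      · exfalso
        rcases h5 with h5 | h5 | ⟨j, h5⟩
        · rw [h5] at h6
          exact Sum.inl_ne_inr h6
        · rw [h5] at h6
          exact Sum.inl_ne_inr h6
        · rw [h5] at h6
          have := Sum.inr.inj h6
          exact hee (congrArg Sigma.fst this).symm
    exact pr_len (g e) _ _ _ (gd s t g hs e) (hO e) (hl e) d ⟨key _ h1 h3, key _ h2 h4⟩

/-- the edges of the graph -/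
noncomputable def edges (hs : ∀ e, s e ≠ t e) (hO : ∀ e, (g e).Ok) (hl : ∀ e, 2 ≤ (g e).len) :
    (Σ e, Ed (g e)) ≃ (spGraph s t g).edgeSet :=
  Equiv.ofBijective (fun d => ⟨sy (pq s t g d), by
    rw [sy, SimpleGraph.mem_edgeSet, adj_iff]
    exact ⟨pr_ne (g d.1) _ _ _ (gd s t g hs d.1) d.2, Or.inl ⟨d, rfl⟩⟩⟩) (by
    constructor
    · intro d d' h
      exact pq_inj s t g hs hO hl d d' (congrArg Subtype.val h)
    · rintro ⟨e, he⟩
      induction e using Sym2.ind with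
      | h a b =>
        rw [SimpleGraph.mem_edgeSet, adj_iff] at he
        rcases he.2 with ⟨d, hd⟩ | ⟨d, hd⟩
        · refine ⟨d, Subtype.ext ?_⟩
          show sy (pq s t g d) = s(a, b)
          rw [hd, sy]
        · refine ⟨d, Subtype.ext ?_⟩
          show sy (pq s t g d) = s(a, b)
          rw [hd, sy]
          exact Sym2.eq_swap)

/-- **[C2]** the number of edges -/
theorem card2 : Card2Stmt := by
  intro V E _ _ s t g hs hO hl
  rw [← Nat.card_congr (edges s t g hs hO hl), Nat.card_sigma]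
  exact Finset.sum_congr rfl fun e _ => card_Ed (g e)

end Vale.Agent.P050.H226.Sub2
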